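import Vale.Agent.P365.T2.H179.OmPath
import Vale.Agent.P365.T2.H259.OneDefs
import Vale.Agent.P365.T2.H963.XFin
import Vale.Agent.P365.T2.H798.BadM
import Vale.Agent.P365.T2.H629.ErrSmall
import Vale.Agent.P365.T2.H79.Flow

/-!
# P365-T2, field `om` of the one-time theorem over `StW` (helper756, shadow of helper883)

179's `om_path` averaged; the bad sites (259, 798), the small tori and the short stages are errors.
-/

set_option linter.all false

namespace P365H756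

open P365L hiding Adm
open P365O P365T1 P365L.TL P365L.T2.Path MeasureTheory Set
open Vale.Agent.P365.J376 P365H219 P365T2.H213 P365T2.H320U P365T2.X629
open P365T2.H259 P365T2.H862 P365T2.H905
open P365T2.H179 (CscP om_path Om_le_En AvG_const_mul)
open P365T2.H784 (Csc)
open P365T2.H963 (FEn FLoss FGr FErr FPos FBn)

/-! ### averages of integrable functionals -/

section av

variable {ι : Type*} [Fintype ι] [DecidableEq ι] {Λ : Type*} [Fintype Λ] {p : Λ → ℝ}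
  {ν : Λ → Measure ℝ} {E : ℝ} {e : (ι → Λ) → ι → ℝ}

/-- integrable at every label configuration -/
def IG (ν : Λ → Measure ℝ) (E : ℝ) (e : (ι → Λ) → ι → ℝ) (G : (ι → Λ) → (ι → ℂ) → ℝ) : Prop :=
  ∀ l, Integrable (fun v => G l (WV E (e l) v)) (Measure.pi fun x => ν (l x))

theorem IG.add {G G' : (ι → Λ) → (ι → ℂ) → ℝ} (h : IG ν E e G) (h' : IG ν E e G') :
    IG ν E e fun l W => G l W + G' l W := fun l => (h l).add (h' l)

theorem IG.const_mul {G : (ι → Λ) → (ι → ℂ) → ℝ} (c : ℝ) (h : IG ν E e G) :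
    IG ν E e fun l W => c * G l W := fun l => (h l).const_mul c

theorem IG.div_const {G : (ι → Λ) → (ι → ℂ) → ℝ} (c : ℝ) (h : IG ν E e G) :
    IG ν E e fun l W => G l W / c := fun l => (h l).div_const c

theorem IG.sum {κ : Type*} (s : Finset κ) {G : κ → (ι → Λ) → (ι → ℂ) → ℝ}
    (h : ∀ k ∈ s, IG ν E e (G k)) : IG ν E e fun l W => ∑ k ∈ s, G k l W := fun l =>
  integrable_finset_sum _ fun k hk => h k hk l

theorem IG.of_cont [∀ k, IsProbabilityMeasure (ν k)] {R : ℝ}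
    (hR : ∀ k, ν k (Icc (-R) R)ᶜ = 0) (he : ∀ l x, 0 < e l x) {G : (ι → Λ) → (ι → ℂ) → ℝ}
    (h : ∀ l, ContinuousOn (G l) (LH ι)) : IG ν E e G := fun l =>
  integrable_of_continuousOn (h l) (fun x => hR (l x)) (he l)

theorem IG.of_adm [∀ k, IsProbabilityMeasure (ν k)] {R : ℝ}
    (hR : ∀ k, ν k (Icc (-R) R)ᶜ = 0) (he : ∀ l x, 0 < e l x) {G : (ι → Λ) → (ι → ℂ) → ℝ}
    (h : ∀ l, P365T2.H179.Adm (G l)) : IG ν E e G := fun l =>
  (h l).integrable (fun x => hR (l x)) (he l)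

theorem AvG_mono' (hp : ∀ k, 0 ≤ p k) {G G' : (ι → Λ) → (ι → ℂ) → ℝ} (h : IG ν E e G)
    (h' : IG ν E e G') (hle : ∀ l v, G l (WV E (e l) v) ≤ G' l (WV E (e l) v)) :
    AvG p ν E e G ≤ AvG p ν E e G' :=
  Finset.sum_le_sum fun l _ => mul_le_mul_of_nonneg_left
    (integral_mono (h l) (h' l) fun v => hle l v) (Finset.prod_nonneg fun x _ => hp _)

theorem AvG_add' {G G' : (ι → Λ) → (ι → ℂ) → ℝ} (h : IG ν E e G) (h' : IG ν E e G') :
    AvG p ν E e (fun l W => G l W + G' l W) = AvG p ν E e G + AvG p ν E e G' := by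
  unfold AvG
  rw [← Finset.sum_add_distrib]
  refine Finset.sum_congr rfl fun l _ => ?_
  rw [← mul_add]
  congr 1
  exact integral_add (h l) (h' l)

theorem AvG_sum' {κ : Type*} (s : Finset κ) {G : κ → (ι → Λ) → (ι → ℂ) → ℝ}
    (h : ∀ k ∈ s, IG ν E e (G k)) :
    AvG p ν E e (fun l W => ∑ k ∈ s, G k l W) = ∑ k ∈ s, AvG p ν E e (G k) := by
  unfold AvG
  rw [Finset.sum_comm]
  refine Finset.sum_congr rfl fun l _ => ?_
  rw [← Finset.mul_sum]
  congr 1
  exact integral_finset_sum _ fun k hk => h k hk l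

theorem AvG_congr' {G G' : (ι → Λ) → (ι → ℂ) → ℝ}
    (h : ∀ l v, G l (WV E (e l) v) = G' l (WV E (e l) v)) :
    AvG p ν E e G = AvG p ν E e G' := by
  unfold AvG Ex
  refine Finset.sum_congr rfl fun l _ => ?_
  congr 2
  funext v
  exact h l v

end av

/-! ### the stage -/

section stw

variable {N : ℕ} [NeZero N] {W : StW N} {lam E C1 η : ℝ}

theorem Phi_fR_le (h : W.Ok lam E C1 η) (J : ℕ) (τ : ℝ) :
    W.Phi E (fR N J) τ ≤ W.Phi E (uF N J) τ := by
  haveI := h.prob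
  unfold StW.Phi uF
  rw [PhiG_elim (AT_symm N) (stw_e_pos h τ)]
  have := PhiG_nonneg (A := AT N) (E := E) (ν := W.ν) (f := phi N) h.p_nonneg
    (e := eT W.u W.w τ) fun l x => (stw_e_pos h τ l x).le
  linarith

theorem Yg_fR_le (h : W.Ok lam E C1 η) (J : ℕ) (τ : ℝ) :
    W.Yg E (fR N J) τ ≤ W.Yg E (uF N J) τ := by
  have h1 := Yg_nonneg h (phi N) τ
  have h2 : W.Yg E (uF N J) τ = W.Yg E (phi N) τ + W.Yg E (fR N J) τ := by
    unfold StW.Yg uF
    rw [YG_elim]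
  linarith

/-- static content of a bounded kernel -/
theorem ShS_le_EM (h : W.Ok lam E C1 η) (τ : ℝ) {κ : Type} [Fintype κ] {F : κ → Tor N → ℝ}
    {R : ℝ} (hR : ∀ x y, ∑ k, (F k x - F k y) ^ 2 ≤ R) :
    P365T2.H24.ShS W E F τ ≤ R * W.EM E W.u τ := by
  haveI := h.prob
  unfold P365T2.H24.ShS StW.EM StW.Av AvG Ex
  rw [Finset.mul_sum]
  refine Finset.sum_le_sum fun l _ => ?_
  rw [← mul_assoc, mul_comm R (∏ x, W.p (l x)), mul_assoc]
  refine mul_le_mul_of_nonneg_left ?_ (Finset.prod_nonneg fun x _ => h.p_nonneg _)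
  rw [← integral_const_mul]
  have hneg : ∀ v y, (WV E (eT W.u W.w τ l) v y).im < 0 := fun v => WV_neg (stw_e_pos h τ l) v
  refine integral_mono (P365V4.B701.integrable_sum_Mf (AT_symm N) _ E (stw_e_pos h τ l) _) ?_
    fun v => ?_
  · refine Integrable.const_mul (integrable_finset_sum _ fun x _ => Integrable.const_mul ?_ _) _
    exact P365T2.H24.integrable_mm (AT_symm N) _ E (stw_e_pos h τ l) x
  · simp only
    rw [Finset.mul_sum]
    refine Finset.sum_le_sum fun x _ => ?_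
    have h2 := P365V4.B701.sum_Mf_le_mm (AT_symm N) (hneg v) hR x
    calc W.u l x * ∑ k, Mf (AT N) (WV E (eT W.u W.w τ l) v) (F k) x
        ≤ W.u l x * (R * mm (AT N) (WV E (eT W.u W.w τ l) v) x) :=
          mul_le_mul_of_nonneg_left h2 (stw_u_nonneg h l x)
      _ = _ := by ring

/-- **the bad sites are an error** -/
theorem BadX_le (h : W.Ok lam E C1 η) (hlam : 0 < lam) (D τ : ℝ) :
    BadX W lam E D τ ≤ (1 + CBE lam (P365T2.H798.bS lam) E) * ErrX W E D τ := by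
  have hc := P365T2.H798.CBE_nonneg hlam E
  set c := CBE lam (P365T2.H798.bS lam) E with hcd
  have hN : 0 < (N : ℝ) ^ 2 := N_sq_pos
  have e1 : (W.Av E τ fun l V => BadV (AT N) (fR N (nJ D W.S)) (ZX W lam E l V) V) =
      W.Av E τ fun l V => BadF lam (AT N) E (fR N (nJ D W.S)) (W.w l) V := by
    refine AvG_congr' fun l v => ?_
    unfold BadV BadF ZX
    exact Finset.sum_congr rfl fun z _ =>
      eng_eq_Mf (AT_symm N) (WV_neg (stw_e_pos h τ l) v) _ z
  have h1 := P365T2.H798.avBadF_le (F := fR N (nJ D W.S)) h hlam τ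
  have h2 := ShS_le_EM (F := fR N (nJ D W.S)) h τ (R := 4 ^ nJ D W.S) fun x y => by
    rw [fR_spec]
    exact P365T2.H37.hk_le_left (by positivity) (by linarith [dsq_nonneg x y])
  have h3 := Yg_fR_le h (nJ D W.S) τ
  have y0 := Yg_nonneg h (uF N (nJ D W.S)) τ
  have m0 := EM_nonneg h (g := W.u) (fun l x => (Ok_u_pos h l x).le) τ
  have k0 := M4_nonneg h τ
  have h4 : (4 : ℝ) ^ nJ D W.S * W.EM E W.u τ ≤ 16 ^ nJ D W.S * W.EM E W.u τ :=
    mul_le_mul_of_nonneg_right (pow_le_pow_left₀ (by norm_num) (by norm_num) _) m0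
  have h5 : c * W.Yg E (fR N (nJ D W.S)) τ ≤ c * W.Yg E (uF N (nJ D W.S)) τ :=
    mul_le_mul_of_nonneg_left h3 hc
  have h6 : 0 ≤ W.M4 E τ / 4 ^ nJ D W.S := by positivity
  have h7 : 0 ≤ (16 : ℝ) ^ nJ D W.S * W.EM E W.u τ := by positivity
  have h8 : W.Av E τ (fun l V => BadF lam (AT N) E (fR N (nJ D W.S)) (W.w l) V) ≤
      (1 + c) * (W.Yg E (uF N (nJ D W.S)) τ + 16 ^ nJ D W.S * W.EM E W.u τ +
        W.M4 E τ / 4 ^ nJ D W.S) := by
    have h9 : 0 ≤ c * (16 ^ nJ D W.S * W.EM E W.u τ + W.M4 E τ / 4 ^ nJ D W.S) := by positivity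
    nlinarith
  have h10 : BadX W lam E D τ ≤ (1 + c) * ((W.Yg E (uF N (nJ D W.S)) τ +
      16 ^ nJ D W.S * W.EM E W.u τ + W.M4 E τ / 4 ^ nJ D W.S) / (N : ℝ) ^ 2) := by
    unfold BadX
    rw [e1, ← mul_div_assoc]
    exact div_le_div_of_nonneg_right h8 hN.le
  refine h10.trans (mul_le_mul_of_nonneg_left ?_ (by positivity))
  unfold ErrX
  have h11 : 0 ≤ 1 / |W.S| := by positivity
  have h12 : 0 ≤ 192 * 4 ^ nJ D W.S / (N : ℝ) := by positivity
  linarith

/-- the far part is an error -/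
theorem M4_le_ErrX (h : W.Ok lam E C1 η) (D τ : ℝ) :
    W.M4 E τ / 4 ^ nJ D W.S / (N : ℝ) ^ 2 ≤ ErrX W E D τ := by
  have hN : 0 < (N : ℝ) ^ 2 := N_sq_pos
  have y0 := Yg_nonneg h (uF N (nJ D W.S)) τ
  have m0 := EM_nonneg h (g := W.u) (fun l x => (Ok_u_pos h l x).le) τ
  have k0 := M4_nonneg h τ
  have h7 : 0 ≤ (16 : ℝ) ^ nJ D W.S * W.EM E W.u τ := by positivity
  have h1 : W.M4 E τ / 4 ^ nJ D W.S / (N : ℝ) ^ 2 ≤ (W.Yg E (uF N (nJ D W.S)) τ +
      16 ^ nJ D W.S * W.EM E W.u τ + W.M4 E τ / 4 ^ nJ D W.S) / (N : ℝ) ^ 2 :=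
    div_le_div_of_nonneg_right (by linarith) hN.le
  unfold ErrX
  have h11 : 0 ≤ 1 / |W.S| := by positivity
  have h12 : 0 ≤ 192 * 4 ^ nJ D W.S / (N : ℝ) := by positivity
  linarith

theorem sum_En_eq {A : Matrix (Tor N) (Tor N) ℝ} {V : Tor N → ℂ} (hA : A.IsSymm)
    (hV : ∀ x, (V x).im < 0) {J : ℕ} (om : Tor N → ℝ) (h0 : ∀ x, 0 ≤ om x)
    (h1 : ∀ x, om x ≤ 1) :
    (datOf A V hA hV (fR N J) om h0 h1).En = ∑ k, En A V (fR N J k) :=
  datOf_En hA hV (fR N J) om h0 h1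

/-- `Om ≤ En`, averaged -/
theorem OmX_le_EnX (h : W.Ok lam E C1 η) (D θ ε τ : ℝ) :
    OmX W lam E D θ ε τ ≤ EnX W E D τ := by
  haveI := h.prob
  have hN : 0 < (N : ℝ) ^ 2 := N_sq_pos
  unfold OmX EnX
  refine div_le_div_of_nonneg_right ?_ hN.le
  refine le_trans ?_ (Phi_fR_le h (nJ D W.S) τ)
  refine AvG_mono' h.p_nonneg (IG.of_adm h.supp (stw_e_pos h τ) fun l =>
    adm_OmV (AT_symm N) (measurableSet_ZX W lam E l) _ _ θ ε)
    (IG.of_adm h.supp (stw_e_pos h τ) fun l => P365T2.H179.Adm.sum _ fun k _ =>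
      adm_En (AT_symm N) (fR N (nJ D W.S) k)) fun l v => ?_
  have hV := WV_neg (E := E) (stw_e_pos h τ l) v
  rw [OmV_eq (AT_symm N) hV (fR N (nJ D W.S)) (omX W τ l) (omX_nonneg h τ l) (omX_le h τ l),
    ← sum_En_eq (AT_symm N) hV (omX W τ l) (omX_nonneg h τ l) (omX_le h τ l)]
  exact Om_le_En _ _ _ _ _

theorem wT_eq_om (h : W.Ok lam E C1 η) (τ : ℝ) (l : Tor N → W.Λ) (v : Tor N → ℝ)
    (x : Tor N) : omX W τ l x * -(WV E (eT W.u W.w τ l) v x).im = wT W.w τ l x := by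
  have him : -(WV E (eT W.u W.w τ l) v x).im = eT W.u W.w τ l x := by
    rw [WV_im0]; ring
  rw [him]
  unfold omX
  rw [div_mul_cancel₀ _ (stw_e_pos h τ l x).ne']

/-- the blocks of scale `ρ`, as an average -/
theorem Csc_eq (h : W.Ok lam E C1 η) (g : ℝ) (ρ : ℕ) (τ : ℝ) :
    Csc W E g ρ τ = W.Av E τ fun l V => CscP (AT N) V (wT W.w τ l) g ρ := by
  haveI := h.prob
  unfold Csc CscP
  refine (AvG_sum' Finset.univ fun z _ => IG.of_cont h.supp (stw_e_pos h τ) fun l => ?_).symm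
  exact (((P365T2.H79.contDiffOn_PhB (n := 0) (AT_symm N) (P365T2.H784.fB z ρ)).continuousOn.inf
    continuousOn_const).div_const g).mul (continuousOn_finset_sum _ fun x _ =>
      continuousOn_const.mul
        (P365T2.H79.contDiffOn_lsB (n := 0) (AT_symm N) (P365T2.H784.fB z ρ) x).continuousOn)

theorem continuousOn_CscP (g : ℝ) (ρ : ℕ) (w : Tor N → ℝ) :
    ContinuousOn (fun V => CscP (AT N) V w g ρ) (LH (Tor N)) := by
  unfold CscP
  exact continuousOn_finset_sum _ fun z _ => (((P365T2.H79.contDiffOn_PhB (n := 0) (AT_symm N)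
    (P365T2.H784.fB z ρ)).continuousOn.inf continuousOn_const).div_const g).mul
    (continuousOn_finset_sum _ fun x _ => continuousOn_const.mul
      (P365T2.H79.contDiffOn_lsB (n := 0) (AT_symm N) (P365T2.H784.fB z ρ) x).continuousOn)

/-- **the main case**: `om_path` averaged -/
theorem OmX_main (h : W.Ok lam E C1 η) {D θ ε τ c k C' g T : ℝ} {i : ℕ} (hC' : 0 ≤ C')
    (hc : 0 ≤ c) (hg : 0 < g) (hε : 0 < ε) (hT : 0 ≤ T)
    (H : ∀ {A : Matrix (Tor N) (Tor N) ℝ} {V : Tor N → ℂ} (hA : A.IsSymm)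
        (hV : ∀ x, (V x).im < 0) (om : Tor N → ℝ) (h0 : ∀ x, 0 ≤ om x) (h1 : ∀ x, om x ≤ 1)
        (Z : Finset (Tor N)),
      Om (datOf A V hA hV (fR N (nJ D W.S)) om h0 h1) Finset.univ Z θ ε ≤
        c * (P365T2.H844.Pos (PhiR N (nJ D W.S)) (P365T2.H844.TT A V) (Real.exp (-T))
          (nJ D W.S) + (datOf A V hA hV (fR N (nJ D W.S)) om h0 h1).En) +
        C' * (ε * g) * (datOf A V hA hV (fR N (nJ D W.S)) om h0 h1).En +
        C' * ∑ s ∈ Finset.range (nJ D W.S - i),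
          CscP A V (fun x => om x * -(V x).im) g (2 ^ (s + i + 2)) +
        C' * Ker.BadE (datOf A V hA hV (fR N (nJ D W.S)) om h0 h1) Z +
        C' * ((∑ v, ∑ x, (-(V v).im) * (-(V x).im) * KK A V v x * dsq v x ^ 2) /
          4 ^ (nJ D W.S))) :
    OmX W lam E D θ ε τ ≤ c * (PosX W E D T τ + EnX W E D τ) + C' * (ε * g) * EnX W E D τ +
      C' * ((∑ s ∈ Finset.range (nJ D W.S - i), Csc W E g (2 ^ (s + i + 2)) τ) / (N : ℝ) ^ 2) +
      C' * BadX W lam E D τ + C' * (W.M4 E τ / 4 ^ nJ D W.S / (N : ℝ) ^ 2) := by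
  haveI := h.prob
  have hN : 0 < (N : ℝ) ^ 2 := N_sq_pos
  have hA := AT_symm N
  set J := nJ D W.S with hJ
  have he := stw_e_pos h τ
  -- the functionals
  set P : (Tor N → W.Λ) → (Tor N → ℂ) → ℝ := fun _ V =>
    P365T2.H844.Pos (PhiR N J) (P365T2.H844.TT (AT N) V) (Real.exp (-T)) J with hP
  set F : (Tor N → W.Λ) → (Tor N → ℂ) → ℝ := fun _ V => ∑ j, En (AT N) V (fR N J j) with hF
  set S : (Tor N → W.Λ) → (Tor N → ℂ) → ℝ := fun l V => ∑ s ∈ Finset.range (J - i),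
    CscP (AT N) V (wT W.w τ l) g (2 ^ (s + i + 2)) with hS
  set B : (Tor N → W.Λ) → (Tor N → ℂ) → ℝ := fun l V =>
    BadV (AT N) (fR N J) (ZX W lam E l V) V with hB
  set M : (Tor N → W.Λ) → (Tor N → ℂ) → ℝ := fun _ V =>
    ∑ x, ∑ y, (-(V x).im) * (-(V y).im) * KK (AT N) V x y * dsq x y ^ 2 with hM
  have iP : IG W.ν E (eT W.u W.w τ) P := IG.of_cont h.supp he fun l =>
    (contDiffOn_Pos (n := 0) hA J (Real.exp_pos _)).continuousOn
  have iF : IG W.ν E (eT W.u W.w τ) F := IG.of_adm h.supp he fun l =>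
    P365T2.H179.Adm.sum _ fun k _ => adm_En hA (fR N J k)
  have iS0 : ∀ s, IG W.ν E (eT W.u W.w τ) fun l V =>
      CscP (AT N) V (wT W.w τ l) g (2 ^ (s + i + 2)) := fun s =>
    IG.of_cont h.supp he fun l => continuousOn_CscP g _ _
  have iS : IG W.ν E (eT W.u W.w τ) S := IG.sum _ fun s _ => iS0 s
  have iB : IG W.ν E (eT W.u W.w τ) B := IG.of_adm h.supp he fun l =>
    adm_BadV hA (measurableSet_ZX W lam E l) (fR N J)
  have iM : IG W.ν E (eT W.u W.w τ) M := IG.of_adm h.supp he fun l =>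
    P365T2.H179.Adm.sum _ fun x _ => P365T2.H179.Adm.sum _ fun y _ =>
      (((adm_e x).mul (adm_e y)).mul (adm_KK hA x y)).mul (P365T2.H179.Adm.const _)
  have iO : IG W.ν E (eT W.u W.w τ) fun l V =>
      OmV (AT N) (fR N J) (omX W τ l) (ZX W lam E l V) θ ε V := IG.of_adm h.supp he fun l =>
    adm_OmV hA (measurableSet_ZX W lam E l) _ _ θ ε
  have key : (W.Av E τ fun l V => OmV (AT N) (fR N J) (omX W τ l) (ZX W lam E l V) θ ε V) ≤
      W.Av E τ fun l V => ((((c * (P l V + F l V)) + (C' * (ε * g)) * F l V) + C' * S l V) +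
        C' * B l V) + C' * (M l V / 4 ^ J) := by
    refine AvG_mono' h.p_nonneg iO ((((((iP.add iF).const_mul c).add (iF.const_mul _)).add
      (iS.const_mul C')).add (iB.const_mul C')).add ((iM.div_const _).const_mul C')) fun l v => ?_
    have hV := WV_neg (E := E) (he l) v
    have h1 := H hA hV (omX W τ l) (omX_nonneg h τ l) (omX_le h τ l)
      (ZX W lam E l (WV E (eT W.u W.w τ l) v))
    rw [OmV_eq hA hV (fR N J) (omX W τ l) (omX_nonneg h τ l) (omX_le h τ l)]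
    rw [datOf_En, ← BadV_eq] at h1
    have e2 : (fun x => omX W τ l x * -(WV E (eT W.u W.w τ l) v x).im) = wT W.w τ l :=
      funext fun x => wT_eq_om h τ l v x
    rw [e2] at h1
    exact h1
  have e3 : (W.Av E τ fun l V => ((((c * (P l V + F l V)) + (C' * (ε * g)) * F l V) +
      C' * S l V) + C' * B l V) + C' * (M l V / 4 ^ J)) =
      c * (W.Av E τ P + W.Av E τ F) + C' * (ε * g) * W.Av E τ F +
        C' * (∑ s ∈ Finset.range (J - i), Csc W E g (2 ^ (s + i + 2)) τ) + C' * W.Av E τ B +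
        C' * (W.M4 E τ / 4 ^ J) := by
    unfold StW.Av
    rw [AvG_add' ((((((iP.add iF).const_mul c).add (iF.const_mul _)).add
      (iS.const_mul C')).add (iB.const_mul C'))) ((iM.div_const _).const_mul C'),
      AvG_add' (((((iP.add iF).const_mul c).add (iF.const_mul _)).add
      (iS.const_mul C'))) (iB.const_mul C'),
      AvG_add' ((((iP.add iF).const_mul c).add (iF.const_mul _))) (iS.const_mul C'),
      AvG_add' (((iP.add iF).const_mul c)) (iF.const_mul _),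
      AvG_const_mul, AvG_const_mul, AvG_const_mul, AvG_const_mul, AvG_const_mul,
      AvG_add' iP iF, hS, AvG_sum' _ fun s _ => iS0 s]
    have e4 : (fun (l : Tor N → W.Λ) (V : Tor N → ℂ) => M l V / 4 ^ J) =
        fun l V => (4 ^ J)⁻¹ * M l V := by
      funext l V
      rw [div_eq_inv_mul]
    have e6 : ∀ s ∈ Finset.range (J - i), Csc W E g (2 ^ (s + i + 2)) τ =
        AvG W.p W.ν E (eT W.u W.w τ) fun l V => CscP (AT N) V (wT W.w τ l) g (2 ^ (s + i + 2)) :=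
      fun s _ => Csc_eq h g _ τ
    rw [e4, AvG_const_mul, Finset.sum_congr rfl e6, div_eq_inv_mul]
    rfl
  have hFle : W.Av E τ F ≤ W.Phi E (uF N J) τ := Phi_fR_le h J τ
  have hcg : 0 ≤ C' * (ε * g) := by positivity
  unfold OmX
  rw [div_le_iff₀ hN]
  have e5 : (c * (PosX W E D T τ + EnX W E D τ) + C' * (ε * g) * EnX W E D τ +
      C' * ((∑ s ∈ Finset.range (J - i), Csc W E g (2 ^ (s + i + 2)) τ) / (N : ℝ) ^ 2) +
      C' * BadX W lam E D τ + C' * (W.M4 E τ / 4 ^ J / (N : ℝ) ^ 2)) * (N : ℝ) ^ 2 =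
      c * (W.Av E τ P + W.Phi E (uF N J) τ) + C' * (ε * g) * W.Phi E (uF N J) τ +
        C' * (∑ s ∈ Finset.range (J - i), Csc W E g (2 ^ (s + i + 2)) τ) + C' * W.Av E τ B +
        C' * (W.M4 E τ / 4 ^ J) := by
    have q1 : PosX W E D T τ = W.Av E τ P / (N : ℝ) ^ 2 := rfl
    have q2 : EnX W E D τ = W.Phi E (uF N J) τ / (N : ℝ) ^ 2 := rfl
    have q3 : BadX W lam E D τ = W.Av E τ B / (N : ℝ) ^ 2 := rfl
    have hN' : (N : ℝ) ≠ 0 := Nat.cast_ne_zero.2 (NeZero.ne N)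
    rw [q1, q2, q3]
    field_simp
  rw [e5]
  refine (key.trans_eq e3).trans ?_
  have t1 := mul_le_mul_of_nonneg_left hFle hc
  have t2 := mul_le_mul_of_nonneg_left hFle hcg
  nlinarith

end stw

/-! ### the field -/

/-- **the field `om`** over 629's states, with 259's functional -/
theorem om_field {lam E C1 : ℝ} (hlam : 0 < lam) (hC1 : 0 < C1) :
    ∀ θ : ℝ, 0 < θ → θ ≤ 1 → ∃ C : ℝ, 0 < C ∧ ∀ k : ℝ, 1 ≤ k → ∃ C' : ℝ, 0 < C' ∧
    ∃ T₀ : ℝ, 1 ≤ T₀ ∧ ∀ T : ℝ, T₀ ≤ T → ∀ g : ℝ, 1 ≤ g → ∀ ε : ℝ, 0 < ε → ε ≤ 1 →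
      ∀ s : Sta lam E C1, OmX s.W lam E C1 θ ε s.τ ≤
        C / k * ((FPos E C1 T).on s + (FEn E C1).on s) + C' * (ε * g) * (FEn E C1).on s +
        C' * (FBn E C1 g).on s + C' * (FErr E C1).on s := by
  intro θ hθ hθ1
  refine ⟨4 / θ + 2, by positivity, fun k hk => ?_⟩
  obtain ⟨i, C', T₀, hC'2, hT₀, H⟩ := om_path hθ hθ1 hk
  have hcb := P365T2.H798.CBE_nonneg hlam E
  set cb := CBE lam (P365T2.H798.bS lam) E with hcbd
  set K : ℝ := C' * (2 + cb) + 16 * C1 + 16 * i with hK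
  have hCK : C' ≤ K := by
    have : 0 ≤ C' * (1 + cb) := by positivity
    have : (0 : ℝ) ≤ i := Nat.cast_nonneg _
    rw [hK]
    nlinarith
  have hK0 : 0 < K := by linarith
  refine ⟨K, hK0, T₀, hT₀, fun T hT g hg ε hε hε1 s => ?_⟩
  obtain ⟨N, W, ok, τ, hτ⟩ := s
  show OmX W lam E C1 θ ε τ ≤ (4 / θ + 2) / k * (PosX W E C1 T τ + EnX W E C1 τ) +
    K * (ε * g) * EnX W E C1 τ +
    K * ((∑ s ∈ Finset.range (2 * nJ C1 W.S + 5), Csc W E g (2 ^ s) τ) / (N : ℝ) ^ 2) +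
    K * ErrX W E C1 τ
  haveI := ok.prob
  have hN : 0 < (N : ℝ) ^ 2 := N_sq_pos
  have hS1 : 1 ≤ W.S := stw_S_ge_one ok one_pos le_rfl
  have hg0 : 0 < g := by linarith
  have hT0 : 0 ≤ T := by linarith
  have hk0 : 0 < k := by linarith
  have n1 : 0 ≤ EnX W E C1 τ := EnX_nonneg ok C1 τ
  have n2 : 0 ≤ ErrX W E C1 τ := ErrX_nonneg ok C1 τ
  have n3 : 0 ≤ PosX W E C1 T τ := by
    unfold PosX
    refine div_nonneg ?_ hN.le
    unfold StW.Av AvG
    refine Finset.sum_nonneg fun l _ => mul_nonneg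
      (Finset.prod_nonneg fun x _ => ok.p_nonneg _) (integral_nonneg fun v => ?_)
    exact P365T2.H844.Pos_nonneg (AT_symm N) (WV_neg (stw_e_pos ok τ l) v)
      (Real.exp_pos _) _
  have n4 : ∀ ρ : ℕ, 0 ≤ Csc W E g ρ τ := fun ρ => by
    rw [Csc_eq ok]
    unfold StW.Av AvG
    refine Finset.sum_nonneg fun l _ => mul_nonneg
      (Finset.prod_nonneg fun x _ => ok.p_nonneg _) (integral_nonneg fun v => ?_)
    exact P365T2.H179.CscP_nonneg (AT_symm N) (WV_neg (stw_e_pos ok τ l) v)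
      (stw_w_nonneg ok τ l) hg0 ρ
  have n5 : 0 ≤ (∑ s ∈ Finset.range (2 * nJ C1 W.S + 5), Csc W E g (2 ^ s) τ) / (N : ℝ) ^ 2 :=
    div_nonneg (Finset.sum_nonneg fun s _ => n4 _) hN.le
  have hEn := EnX_le ok hτ C1
  have hOE := OmX_le_EnX ok C1 θ ε τ
  have trivial_case : 16 * C1 ≤ K * ErrX W E C1 τ → OmX W lam E C1 θ ε τ ≤
      (4 / θ + 2) / k * (PosX W E C1 T τ + EnX W E C1 τ) +
      K * (ε * g) * EnX W E C1 τ +
      K * ((∑ s ∈ Finset.range (2 * nJ C1 W.S + 5), Csc W E g (2 ^ s) τ) / (N : ℝ) ^ 2) +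
      K * ErrX W E C1 τ := fun h => by
    have t1 : 0 ≤ (4 / θ + 2) / k * (PosX W E C1 T τ + EnX W E C1 τ) := by positivity
    have t2 : 0 ≤ K * (ε * g) * EnX W E C1 τ := by positivity
    have t3 := mul_nonneg hK0.le n5
    linarith
  rcases big_or_one_le_ErrX ok C1 τ with hbig | h1
  swap
  · -- small torus
    refine trivial_case ?_
    have h2 : 16 * C1 ≤ K := by
      have : (0 : ℝ) ≤ i := Nat.cast_nonneg _
      have : 0 ≤ C' * (2 + cb) := by positivity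
      rw [hK]
      linarith
    calc 16 * C1 ≤ K * 1 := by linarith
      _ ≤ _ := mul_le_mul_of_nonneg_left h1 hK0.le
  by_cases hJi : nJ C1 W.S ≤ i
  · -- short stage
    refine trivial_case ?_
    have h2 := le_nJ C1 W.S
    have h3 : (nJ C1 W.S : ℝ) ≤ i := Nat.cast_le.2 hJi
    have h4 : C1 * W.S ≤ i := by linarith
    have h5 := inv_S_le_ErrX ok C1 τ
    rw [abs_of_pos (by linarith)] at h5
    have h6 : 16 * C1 = 16 * (C1 * W.S) * (1 / W.S) := by
      field_simp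
    have h7 : 0 ≤ 1 / W.S := by positivity
    have h8 : 16 * (C1 * W.S) ≤ K := by
      have : 0 ≤ C' * (2 + cb) := by positivity
      rw [hK]
      linarith
    rw [h6]
    exact mul_le_mul h8 h5 h7 hK0.le
  · -- the main case
    push Not at hJi
    have hJ1 : i + 1 ≤ nJ C1 W.S := hJi
    have hNb : 12 * 2 ^ (nJ C1 W.S + 1) < N := by
      refine lt_of_le_of_lt ?_ hbig
      exact Nat.mul_le_mul_left 12 (Nat.pow_le_pow_right (by norm_num) (by omega))
    have hm := OmX_main ok (D := C1) (θ := θ) (ε := ε) (τ := τ) (k := k) (T := T) (g := g)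
      (i := i) (C' := C') (c := (4 / θ + 2) / k) (by linarith) (by positivity) hg0 hε hT0
      (fun {A V} hA hV om h0 h1 Z => H T hT g hg ε hε hε1 hJ1 hNb hA hV om h0 h1 Z)
    have hb := BadX_le ok hlam C1 τ
    have h4 := M4_le_ErrX ok C1 τ
    have hsum : ∑ s ∈ Finset.range (nJ C1 W.S - i), Csc W E g (2 ^ (s + i + 2)) τ ≤
        ∑ s ∈ Finset.range (2 * nJ C1 W.S + 5), Csc W E g (2 ^ s) τ := by
      have e1 : ∑ s ∈ Finset.range (nJ C1 W.S - i), Csc W E g (2 ^ (s + i + 2)) τ =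
          ∑ s ∈ (Finset.range (nJ C1 W.S - i)).image (fun s => s + i + 2),
            Csc W E g (2 ^ s) τ := by
        rw [Finset.sum_image fun a _ b _ hab => by omega]
      rw [e1]
      refine Finset.sum_le_sum_of_subset_of_nonneg ?_ fun s _ _ => n4 _
      intro s hs
      obtain ⟨a, ha, rfl⟩ := Finset.mem_image.1 hs
      rw [Finset.mem_range] at ha ⊢
      omega
    have hsum' : (∑ s ∈ Finset.range (nJ C1 W.S - i), Csc W E g (2 ^ (s + i + 2)) τ) /
        (N : ℝ) ^ 2 ≤ (∑ s ∈ Finset.range (2 * nJ C1 W.S + 5), Csc W E g (2 ^ s) τ) /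
        (N : ℝ) ^ 2 := div_le_div_of_nonneg_right hsum hN.le
    have hC'0 : 0 ≤ C' := by linarith
    have t1 : C' * (ε * g) * EnX W E C1 τ ≤ K * (ε * g) * EnX W E C1 τ :=
      mul_le_mul_of_nonneg_right (mul_le_mul_of_nonneg_right hCK (by positivity)) n1
    have t2 : C' * ((∑ s ∈ Finset.range (nJ C1 W.S - i), Csc W E g (2 ^ (s + i + 2)) τ) /
        (N : ℝ) ^ 2) ≤ K * ((∑ s ∈ Finset.range (2 * nJ C1 W.S + 5), Csc W E g (2 ^ s) τ) /
        (N : ℝ) ^ 2) := mul_le_mul hCK hsum'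
          (div_nonneg (Finset.sum_nonneg fun s _ => n4 _) hN.le) hK0.le
    have t3 : C' * BadX W lam E C1 τ ≤ C' * ((1 + cb) * ErrX W E C1 τ) :=
      mul_le_mul_of_nonneg_left hb hC'0
    have t4 : C' * (W.M4 E τ / 4 ^ nJ C1 W.S / (N : ℝ) ^ 2) ≤ C' * ErrX W E C1 τ :=
      mul_le_mul_of_nonneg_left h4 hC'0
    have t5 : C' * ((1 + cb) * ErrX W E C1 τ) + C' * ErrX W E C1 τ ≤ K * ErrX W E C1 τ := by
      have e1 : C' * ((1 + cb) * ErrX W E C1 τ) + C' * ErrX W E C1 τ =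
          (C' * (2 + cb)) * ErrX W E C1 τ := by ring
      rw [e1]
      refine mul_le_mul_of_nonneg_right ?_ n2
      have : (0 : ℝ) ≤ i := Nat.cast_nonneg _
      rw [hK]
      linarith
    linarith

end P365H756
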