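import Vale.Agent.P365.T2.H756.MPt
import Vale.Agent.P365.T2.Gen963
import Vale.Agent.P365.T2.UpsGen844

set_option linter.all false

/-!
# P365 T2 / H756 / MInt: the `M`-part of the law error of the one-body entropy, integrated back

`|∫ ρ' Σ_i c_i φ(u_i) HV M_i| ≤ ∫ Σ_i c_i 4 T_(x_i) y (P_y w_i + u_i) dμ` on the line of `v_y`.
-/

namespace P365H756

open MeasureTheory Set Filter P365L P365O P365T1 Vale.Agent.P365.J376 Complex P365H878
open P365L.T2.Path
open scoped Topology ComplexConjugate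

/-! ### the function `φ (u) = u² / (u + ε)` -/

/-- `φ (u) = u G'(u) - G(u)`, `G(u) = u log (u + ε)` -/
noncomputable def ph (ε u : ℝ) : ℝ := u ^ 2 / (u + ε)

/-- its derivative -/
noncomputable def ph1 (ε u : ℝ) : ℝ := (u ^ 2 + 2 * ε * u) / (u + ε) ^ 2

theorem Gf_sub {ε u : ℝ} : P365T2.H844.Gf ε u - u * P365T2.H844.Gf1 ε u = -ph ε u := by
  unfold P365T2.H844.Gf P365T2.H844.Gf1 ph
  ring

theorem hasDerivAt_ph {ε u : ℝ} (h : 0 < u + ε) : HasDerivAt (ph ε) (ph1 ε u) u := by
  have h1 : HasDerivAt (fun u : ℝ => u + ε) 1 u := (hasDerivAt_id u).add_const ε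
  have h2 : HasDerivAt (fun u : ℝ => u ^ 2) (2 * u) u := by
    simpa using hasDerivAt_pow 2 u
  refine (h2.div h1 h.ne').congr_deriv ?_
  unfold ph1
  ring

theorem contDiffOn_ph {n : WithTop ℕ∞} {ε : ℝ} : ContDiffOn ℝ n (ph ε) {u | 0 < u + ε} := by
  unfold ph
  exact (contDiffOn_id.pow 2).div (contDiffOn_id.add contDiffOn_const) fun u hu => (ne_of_gt hu)

theorem ph_nonneg {ε u : ℝ} (hε : 0 < ε) (hu : 0 ≤ u) : 0 ≤ ph ε u := by
  unfold ph; positivity

theorem ph_le {ε u : ℝ} (hε : 0 < ε) (hu : 0 ≤ u) : ph ε u ≤ u := by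
  unfold ph
  rw [div_le_iff₀ (by positivity)]
  nlinarith [mul_nonneg hu hε.le]

theorem abs_ph_le {ε u : ℝ} (hε : 0 < ε) (hu : 0 ≤ u) : |ph ε u| ≤ u := by
  rw [abs_of_nonneg (ph_nonneg hε hu)]
  exact ph_le hε hu

theorem abs_ph1_le {ε u : ℝ} (hε : 0 < ε) (hu : 0 ≤ u) : |ph1 ε u| ≤ 1 := by
  have h : 0 < (u + ε) ^ 2 := by positivity
  unfold ph1
  rw [abs_of_nonneg (by positivity), div_le_one h]
  nlinarith [mul_self_nonneg ε]

section line

variable {ι : Type*} [Fintype ι] [DecidableEq ι] {A : Matrix ι ι ℝ}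

theorem contDiffOn_phu (hA : A.IsSymm) {n : WithTop ℕ∞} {ε : ℝ} (hε : 0 < ε) {w : ι → ℝ}
    (hw : ∀ z, 0 ≤ w z) (x : ι) :
    ContDiffOn ℝ n (fun W => ph ε (NN A w x W / MM A x W)) (Om ι) := by
  refine contDiffOn_ph.comp (contDiffOn_u hA w x) fun W hW => ?_
  have h1 := NN_nonneg (A := A) hw hW x
  have h2 := MM_pos hA hW x
  show 0 < NN A w x W / MM A x W + ε
  positivity

theorem contDiffOn_phHV (hA : A.IsSymm) {ε : ℝ} (hε : 0 < ε) {w : ι → ℝ}
    (hw : ∀ z, 0 ≤ w z) (x y : ι) :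
    ContDiffOn ℝ 1 (fun W => ph ε (NN A w x W / MM A x W) * HV A (MM A x) y W) (Om ι) :=
  (contDiffOn_phu hA hε hw x).mul (contDiffOn_HV hA (contDiffOn_MM (n := 2) hA x) y)

/-- the local content at `y` -/
noncomputable def ct (A : Matrix ι ι ℝ) (w : ι → ℝ) (x y : ι) (W : ι → ℂ) : ℝ :=
  TT A x y W * (NN A w y W / MM A y W + NN A w x W / MM A x W)

theorem continuousOn_ct (hA : A.IsSymm) (w : ι → ℝ) (x y : ι) :
    ContinuousOn (ct A w x y) (Om ι) :=
  ((contDiffOn_TT (n := 1) hA x y).mul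
    ((contDiffOn_u hA w y).add (contDiffOn_u hA w x))).continuousOn

theorem ct_nonneg (hA : A.IsSymm) {w : ι → ℝ} (hw : ∀ z, 0 ≤ w z) (x y : ι) {W : ι → ℂ}
    (hW : W ∈ Om ι) : 0 ≤ ct A w x y W := by
  have h1 := NN_nonneg (A := A) hw hW x
  have h2 := NN_nonneg (A := A) hw hW y
  have h3 := MM_pos hA hW x
  have h4 := MM_pos hA hW y
  have h5 := TT_nonneg (A := A) hW x y
  unfold ct
  positivity

theorem abs_DV_ph_HV (hA : A.IsSymm) {ε : ℝ} (hε : 0 < ε) {w : ι → ℝ} (hw : ∀ z, 0 ≤ w z)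
    (x y : ι) {W : ι → ℂ} (hW : W ∈ Om ι) :
    |DV (fun W => ph ε (NN A w x W / MM A x W) * HV A (MM A x) y W) y W| ≤
      4 * ct A w x y W := by
  have h1 := NN_nonneg (A := A) hw hW x
  have h2 := MM_pos hA hW x
  have h3 : 0 ≤ NN A w x W / MM A x W := by positivity
  exact abs_DV_phi_HV hA hw x y hW (hasDerivAt_ph (by linarith)) (abs_ph_le hε h3)
    (abs_ph1_le hε h3)

variable {E : ℝ} {e : ι → ℝ} {μ : Measure ℝ} {ρ ρ' : ℝ → ℝ}

/-- **the `M`-part, one term, on the line of `v_y`** -/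
theorem mpart_one (hA : A.IsSymm) {ε : ℝ} (hε : 0 < ε) {w : ι → ℝ} (hw : ∀ z, 0 ≤ w z)
    (he : ∀ x, 0 < e x) (h : SmLaw μ ρ ρ') (v : ι → ℝ) (x y : ι) :
    |∫ t : ℝ, ρ' t * (ph ε (NN A w x (WV E e (Function.update v y t)) /
        MM A x (WV E e (Function.update v y t))) *
        HV A (MM A x) y (WV E e (Function.update v y t)))| ≤
      ∫ t, 4 * ct A w x y (WV E e (Function.update v y t)) ∂μ := by
  have hc := contDiffOn_phHV hA hε hw x y
  have hd : Continuous fun t : ℝ => dR (fun W => ph ε (NN A w x W / MM A x W) *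
      HV A (MM A x) y W) y (WV E e (Function.update v y t)) :=
    continuous_upd (E := E) (continuousOn_dR hc y) he v y
  have hp := h.parts (fun t => hasDerivAt_v hc (E := E) (v := v) y he t) hd
  have e1 : ∫ t : ℝ, ρ' t * (ph ε (NN A w x (WV E e (Function.update v y t)) /
        MM A x (WV E e (Function.update v y t))) *
        HV A (MM A x) y (WV E e (Function.update v y t))) =
      -∫ t : ℝ, ρ t * dR (fun W => ph ε (NN A w x W / MM A x W) *
        HV A (MM A x) y W) y (WV E e (Function.update v y t)) := by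
    rw [hp, neg_neg]
  rw [e1, abs_neg, h.integral_eq]
  have hct : Continuous fun t : ℝ => 4 * ct A w x y (WV E e (Function.update v y t)) :=
    continuous_const.mul (continuous_upd (E := E) (continuousOn_ct hA w x y) he v y)
  refine abs_integral_le_integral_abs.trans ?_
  refine integral_mono_of_nonneg (Eventually.of_forall fun t => abs_nonneg _)
    (h.integrable_mul hct) (Eventually.of_forall fun t => ?_)
  have hW : WV E e (Function.update v y t) ∈ Om ι := WV_mem_LH he _
  simp only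
  rw [abs_mul, abs_of_nonneg (h.nonneg t)]
  exact mul_le_mul_of_nonneg_left (abs_DV_ph_HV hA hε hw x y hW) (h.nonneg t)

/-- **the `M`-part, finite families** -/
theorem mpart_sum (hA : A.IsSymm) {κ : Type*} (s : Finset κ) {ε : ℝ} (hε : 0 < ε)
    {c : κ → ℝ} (hc : ∀ i ∈ s, 0 ≤ c i) {w : κ → ι → ℝ} (hw : ∀ i ∈ s, ∀ z, 0 ≤ w i z)
    (X : κ → ι) (he : ∀ x, 0 < e x) (h : SmLaw μ ρ ρ') (v : ι → ℝ) (y : ι) :
    |∫ t : ℝ, ρ' t * ∑ i ∈ s, c i * (ph ε (NN A (w i) (X i) (WV E e (Function.update v y t)) /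
        MM A (X i) (WV E e (Function.update v y t))) *
        HV A (MM A (X i)) y (WV E e (Function.update v y t)))| ≤
      ∫ t, 4 * ∑ i ∈ s, c i * ct A (w i) (X i) y (WV E e (Function.update v y t)) ∂μ := by
  have hint : ∀ i ∈ s, Integrable fun t : ℝ => c i * (ρ' t *
      (ph ε (NN A (w i) (X i) (WV E e (Function.update v y t)) /
        MM A (X i) (WV E e (Function.update v y t))) *
        HV A (MM A (X i)) y (WV E e (Function.update v y t)))) := fun i hi =>
    (h.integrable_mul' (continuous_upd (E := E)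
      (contDiffOn_phHV hA hε (hw i hi) (X i) y).continuousOn he v y)).const_mul _
  have e1 : ∀ t : ℝ, ρ' t * ∑ i ∈ s, c i *
      (ph ε (NN A (w i) (X i) (WV E e (Function.update v y t)) /
        MM A (X i) (WV E e (Function.update v y t))) *
        HV A (MM A (X i)) y (WV E e (Function.update v y t))) =
      ∑ i ∈ s, c i * (ρ' t * (ph ε (NN A (w i) (X i) (WV E e (Function.update v y t)) /
        MM A (X i) (WV E e (Function.update v y t))) *
        HV A (MM A (X i)) y (WV E e (Function.update v y t)))) := by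
    intro t
    rw [Finset.mul_sum]
    exact Finset.sum_congr rfl fun i _ => by ring
  simp only [e1]
  rw [integral_finset_sum _ hint]
  have hint2 : ∀ i ∈ s, Integrable (fun t : ℝ => c i * (4 * ct A (w i) (X i) y
      (WV E e (Function.update v y t)))) μ := by
    intro i hi
    have hct : Continuous fun t : ℝ =>
        c i * (4 * ct A (w i) (X i) y (WV E e (Function.update v y t))) :=
      continuous_const.mul (continuous_const.mul
        (continuous_upd (E := E) (continuousOn_ct hA (w i) (X i) y) he v y))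
    rw [h.eq, integrable_withDensity_iff_integrable_smul'
      (h.continuous.measurable.ennreal_ofReal) (Eventually.of_forall fun t => ENNReal.ofReal_lt_top)]
    refine (h.integrable_mul hct).congr (Eventually.of_forall fun t => ?_)
    simp only [ENNReal.toReal_ofReal (h.nonneg t), smul_eq_mul]
  have e2 : ∫ t, 4 * ∑ i ∈ s, c i * ct A (w i) (X i) y (WV E e (Function.update v y t)) ∂μ =
      ∑ i ∈ s, c i * ∫ t, 4 * ct A (w i) (X i) y (WV E e (Function.update v y t)) ∂μ := by
    have e3 : ∀ t, 4 * ∑ i ∈ s, c i * ct A (w i) (X i) y (WV E e (Function.update v y t)) =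
        ∑ i ∈ s, c i * (4 * ct A (w i) (X i) y (WV E e (Function.update v y t))) := by
      intro t
      rw [Finset.mul_sum]
      exact Finset.sum_congr rfl fun i _ => by ring
    simp only [e3]
    rw [integral_finset_sum _ hint2]
    exact Finset.sum_congr rfl fun i _ => integral_const_mul _ _
  rw [e2]
  refine (Finset.abs_sum_le_sum_abs _ _).trans (Finset.sum_le_sum fun i hi => ?_)
  rw [integral_const_mul, abs_mul, abs_of_nonneg (hc i hi)]
  exact mul_le_mul_of_nonneg_left (mpart_one hA hε (hw i hi) he h v (X i) y) (hc i hi)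

end line

end P365H756
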