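import Vale.Agent.P365.T2.H878.LL2

set_option linter.all false

/-!
# P365 T2 / H756 / MPt: the `M`-part of the law error of the one-body entropy (pointwise half)

`HV A (MM A x) y` = flux of `M_x = e_x Im G_xx`; its derivative in the potential of `y` is
`e_x e_y Re (G_xy²)`, so that the term `φ (u_x) * HV M_x` can be integrated back with a derivative
of size `T_xy (P_y w + u_x)`.
-/

namespace P365H756

open MeasureTheory Set Filter P365L P365O P365T1 Vale.Agent.P365.J376 Complex P365H878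
open scoped Topology ComplexConjugate

variable {ι : Type*} [Fintype ι] [DecidableEq ι] {A : Matrix ι ι ℝ}

theorem DE_mm (hA : A.IsSymm) {W : ι → ℂ} (hW : W ∈ Om ι) (x y : ι) :
    DE (fun W => mm A W x) y W = (Gr A W x y * Gr A W y x).re := by
  have e : (fun W => mm A W x) = fun W : ι → ℂ => (-I * Gr A W x x).re := by
    funext W
    unfold mm
    simp
  rw [e, DE_Gr hA hW]
  congr 1
  rw [neg_mul, I_mul_I]
  ring

theorem DE_MM (hA : A.IsSymm) {W : ι → ℂ} (hW : W ∈ Om ι) (x y : ι) :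
    DE (MM A x) y W = (if x = y then mm A W x else 0) -
      (W x).im * (Gr A W x y * Gr A W y x).re := by
  have e : MM A x = fun W : ι → ℂ => (-1) * ((W x).im * mm A W x) := by
    funext W
    unfold MM
    ring
  have d1 : DifferentiableAt ℝ (fun W : ι → ℂ => (W x).im) W :=
    (contDiff_imc (n := 1) x).differentiable one_ne_zero W
  have d2 := diffAt (contDiffOn_mm (n := 1) hA x) one_ne_zero hW
  have h1 : DE (fun W : ι → ℂ => (-1) * ((W x).im * mm A W x)) y W =
      (-1) * DE (fun W : ι → ℂ => (W x).im * mm A W x) y W := DD_const_mul (-1) (d1.mul d2)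
  have h2 : DE (fun W : ι → ℂ => (W x).im * mm A W x) y W =
      (W x).im * DE (fun W => mm A W x) y W + mm A W x * DE (fun W : ι → ℂ => (W x).im) y W :=
    DD_mul d1 d2
  rw [e, h1, h2, DE_mm hA hW, DE_im]
  by_cases h : x = y
  · simp only [h, if_true]; ring
  · simp only [h, if_false]; ring

/-- **the derivative of the flux of `M_x`** -/
theorem DV_HV_MM (hA : A.IsSymm) {W : ι → ℂ} (hW : W ∈ Om ι) (x y : ι) :
    DV (HV A (MM A x) y) y W = (W x).im * (W y).im * (Gr A W x y * Gr A W y x).re := by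
  have h1 := LL_MM hA x y hW
  unfold LL at h1
  rw [DE_MM hA hW] at h1
  by_cases h : x = y
  · subst h
    simp only [if_true] at h1
    have e : MM A x W = -(W x).im * mm A W x := rfl
    rw [e] at h1
    linarith
  · simp only [h, if_false] at h1
    linarith

theorem abs_DV_HV_MM (hA : A.IsSymm) {W : ι → ℂ} (hW : W ∈ Om ι) (x y : ι) :
    |DV (HV A (MM A x) y) y W| ≤ TT A x y W := by
  rw [DV_HV_MM hA hW, abs_mul]
  have h1 : 0 ≤ (W x).im * (W y).im :=
    mul_nonneg_of_nonpos_of_nonpos (hW x).le (hW y).le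
  rw [abs_of_nonneg h1]
  unfold TT KK
  refine mul_le_mul_of_nonneg_left ((Complex.abs_re_le_norm _).trans (le_of_eq ?_)) h1
  rw [norm_mul, Gr_symm hA y x]
  ring

theorem DV_MM (hA : A.IsSymm) {W : ι → ℂ} (hW : W ∈ Om ι) (x y : ι) :
    DV (MM A x) y W = (W x).im * (Gr A W x y * Gr A W y x).im := by
  have e : MM A x = fun W : ι → ℂ => (-1) * ((W x).im * mm A W x) := by
    funext W
    unfold MM
    ring
  have d1 : DifferentiableAt ℝ (fun W : ι → ℂ => (W x).im) W :=
    (contDiff_imc (n := 1) x).differentiable one_ne_zero W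
  have d2 := diffAt (contDiffOn_mm (n := 1) hA x) one_ne_zero hW
  have h1 : DV (fun W : ι → ℂ => (-1) * ((W x).im * mm A W x)) y W =
      (-1) * DV (fun W : ι → ℂ => (W x).im * mm A W x) y W := DD_const_mul (-1) (d1.mul d2)
  have h2 : DV (fun W : ι → ℂ => (W x).im * mm A W x) y W =
      (W x).im * DV (fun W => mm A W x) y W + mm A W x * DV (fun W : ι → ℂ => (W x).im) y W :=
    DD_mul d1 d2
  rw [e, h1, h2, DV_mm hA hW, DV_im]
  ring

/-- `|Im G_xy|² ≤ m_x m_y` -/
theorem im_Gr_sq_le (hA : A.IsSymm) {W : ι → ℂ} (hW : W ∈ Om ι) (x y : ι) :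
    (Gr A W x y).im ^ 2 ≤ mm A W x * mm A W y := by
  have h1 := Ward_apply hA hW x y
  have h2 : |(Gr A W x y).im| ≤ ∑ z, (-(W z).im) * (‖Gr A W x z‖ * ‖Gr A W y z‖) := by
    have h3 : |(Gr A W x y).im| = ‖(((Gr A W x y).im : ℝ) : ℂ)‖ := by
      rw [Complex.norm_real, Real.norm_eq_abs]
    rw [h3, h1]
    refine (norm_sum_le _ _).trans (le_of_eq (Finset.sum_congr rfl fun z _ => ?_))
    rw [norm_mul, norm_mul, Complex.norm_conj, Complex.norm_real, Real.norm_eq_abs,
      abs_of_pos (neg_pos.2 (hW z)), Gr_symm hA z y]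
  have h4 : (∑ z, (-(W z).im) * (‖Gr A W x z‖ * ‖Gr A W y z‖)) ^ 2 ≤
      (∑ z, (-(W z).im) * ‖Gr A W x z‖ ^ 2) * ∑ z, (-(W z).im) * ‖Gr A W y z‖ ^ 2 :=
    cs_sum Finset.univ _ _ _ (fun z _ => (neg_pos.2 (hW z)).le) (fun z _ => norm_nonneg _)
      (fun z _ => norm_nonneg _)
  rw [mm_eq hA hW x, mm_eq hA hW y]
  rw [← sq_abs]
  exact (pow_le_pow_left₀ (abs_nonneg _) h2 2).trans h4

/-- **gradient of `M_x`** -/
theorem grad_M (hA : A.IsSymm) {W : ι → ℂ} (hW : W ∈ Om ι) (x y : ι) :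
    -(W y).im / (2 * mm A W y) * DV (MM A x) y W ^ 2 ≤ 2 * (TT A x y W * MM A x W) := by
  have hmy := P365L.mm_pos hA hW y
  have hmx := P365L.mm_pos hA hW x
  have ex := hW x
  have ey := hW y
  have him := im_Gr_sq_le hA hW x y
  rw [DV_MM hA hW, Gr_symm hA y x]
  have e1 : (Gr A W x y * Gr A W x y).im = 2 * (Gr A W x y).re * (Gr A W x y).im := by
    rw [Complex.mul_im]; ring
  have hre : (Gr A W x y).re ^ 2 ≤ KK A W x y := by
    unfold KK
    rw [Complex.sq_norm, Complex.normSq_apply]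
    nlinarith [mul_self_nonneg (Gr A W x y).im]
  have hK := KK_nonneg (A := A) (W := W) x y
  have h1 : (Gr A W x y).re ^ 2 * (Gr A W x y).im ^ 2 ≤ KK A W x y * (mm A W x * mm A W y) :=
    mul_le_mul hre him (sq_nonneg _) hK
  have h2 : ((W x).im * (Gr A W x y * Gr A W x y).im) ^ 2 =
      4 * (W x).im ^ 2 * ((Gr A W x y).re ^ 2 * (Gr A W x y).im ^ 2) := by
    rw [e1]; ring
  rw [h2, div_mul_eq_mul_div, div_le_iff₀ (by positivity)]
  unfold TT MM
  have h3 : -(W y).im * (4 * (W x).im ^ 2 * ((Gr A W x y).re ^ 2 * (Gr A W x y).im ^ 2)) ≤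
      -(W y).im * (4 * (W x).im ^ 2 * (KK A W x y * (mm A W x * mm A W y))) :=
    mul_le_mul_of_nonneg_left (mul_le_mul_of_nonneg_left h1 (by positivity)) (by linarith)
  refine h3.trans (le_of_eq ?_)
  ring

/-! ### the product `φ (u_x) * HV M_x` -/

section prod

variable {w : ι → ℝ} {φ φ1 : ℝ → ℝ}

theorem contDiffOn_u (hA : A.IsSymm) {n : WithTop ℕ∞} (w : ι → ℝ) (x : ι) :
    ContDiffOn ℝ n (fun W => NN A w x W / MM A x W) (Om ι) :=
  (contDiffOn_NN hA w x).div (contDiffOn_MM hA x) fun W hW => (MM_pos hA hW x).ne'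

/-- **the derivative of `φ (u_x) * HV M_x` is a local content** -/
theorem abs_DV_phi_HV (hA : A.IsSymm) (hw : ∀ z, 0 ≤ w z) (x y : ι) {W : ι → ℂ} (hW : W ∈ Om ι)
    (hφ : HasDerivAt φ (φ1 (NN A w x W / MM A x W)) (NN A w x W / MM A x W))
    (hφ0 : |φ (NN A w x W / MM A x W)| ≤ NN A w x W / MM A x W)
    (hφ1 : |φ1 (NN A w x W / MM A x W)| ≤ 1) :
    |DV (fun W => φ (NN A w x W / MM A x W) * HV A (MM A x) y W) y W| ≤
      4 * (TT A x y W * (NN A w y W / MM A y W + NN A w x W / MM A x W)) := by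
  have hMx := MM_pos hA hW x
  have hMy := MM_pos hA hW y
  have hmy := P365L.mm_pos hA hW y
  have hNx := NN_nonneg (A := A) hw hW x
  have hNy := NN_nonneg (A := A) hw hW y
  have hT := TT_nonneg (A := A) hW x y
  have hdu := diffAt (contDiffOn_u (n := 1) hA w x) one_ne_zero hW
  have hdφ : DifferentiableAt ℝ (fun W => φ (NN A w x W / MM A x W)) W :=
    (hφ.comp_hasFDerivAt W hdu.hasFDerivAt).differentiableAt
  have hdH := diffAt (contDiffOn_HV hA (contDiffOn_MM (n := 2) hA x) y) one_ne_zero hW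
  have e1 : DV (fun W => φ (NN A w x W / MM A x W) * HV A (MM A x) y W) y W =
      φ (NN A w x W / MM A x W) * DV (HV A (MM A x) y) y W +
        HV A (MM A x) y W * DV (fun W => φ (NN A w x W / MM A x W)) y W := DD_mul hdφ hdH
  have e2 : DV (fun W => φ (NN A w x W / MM A x W)) y W =
      φ1 (NN A w x W / MM A x W) * DV (fun W => NN A w x W / MM A x W) y W := DD_comp hdu hφ
  obtain ⟨u, hu⟩ : ∃ u : ℝ, u = NN A w x W / MM A x W := ⟨_, rfl⟩
  obtain ⟨P, hP⟩ : ∃ P : ℝ, P = NN A w y W / MM A y W := ⟨_, rfl⟩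
  obtain ⟨d, hd⟩ : ∃ d : ℝ, d = DV (fun W => NN A w x W / MM A x W) y W := ⟨_, rfl⟩
  obtain ⟨b, hb⟩ : ∃ b : ℝ, b = DV (MM A x) y W := ⟨_, rfl⟩
  obtain ⟨a, ha⟩ : ∃ a : ℝ, a = -(W y).im / (2 * mm A W y) := ⟨_, rfl⟩
  have ha0 : 0 < a := by
    rw [ha]
    exact div_pos (neg_pos.2 (hW y)) (by positivity)
  have hu0 : 0 ≤ u := by rw [hu]; positivity
  have hP0 : 0 ≤ P := by rw [hP]; positivity
  have g1 := grad_M hA hW x y
  have g2 := grad_u hA hw x y hW
  have eH : HV A (MM A x) y W = a * b := by rw [ha, hb]; rfl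
  rw [← ha, ← hb] at g1
  rw [← ha, ← hd, ← hu, ← hP] at g2
  rw [e1, e2, eH, ← hu, ← hP, ← hd]
  rw [← hu] at hφ0 hφ1
  have h1 : |a * b * d| ≤ 3 * (TT A x y W * (P + u)) := by
    refine abs_le_of_sq_le_sq ?_ (by positivity)
    have h2 : (a * b * d) ^ 2 * MM A x W = (a * b ^ 2) * (a * (MM A x W * d ^ 2)) := by ring
    have h3 : (a * b ^ 2) * (a * (MM A x W * d ^ 2)) ≤
        (2 * (TT A x y W * MM A x W)) * (4 * u * TT A x y W * (P + u)) :=
      mul_le_mul g1 g2 (by positivity) (by positivity)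
    have h4 : (a * b * d) ^ 2 * MM A x W ≤ (8 * u * TT A x y W ^ 2 * (P + u)) * MM A x W := by
      rw [h2]
      refine h3.trans (le_of_eq ?_)
      ring
    have h5 := le_of_mul_le_mul_right h4 hMx
    refine h5.trans ?_
    have h6 : u * (P + u) ≤ (P + u) * (P + u) :=
      mul_le_mul_of_nonneg_right (by linarith) (by positivity)
    have h7 : 0 ≤ TT A x y W ^ 2 := sq_nonneg _
    nlinarith [mul_le_mul_of_nonneg_left h6 h7, mul_nonneg h7 (mul_self_nonneg (P + u))]
  have h2 := abs_DV_HV_MM hA hW x y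
  have h3 : |φ u * DV (HV A (MM A x) y) y W| ≤ u * TT A x y W := by
    rw [abs_mul]
    exact mul_le_mul hφ0 h2 (abs_nonneg _) hu0
  have h4 : |a * b * (φ1 u * d)| ≤ 3 * (TT A x y W * (P + u)) := by
    have e3 : a * b * (φ1 u * d) = φ1 u * (a * b * d) := by ring
    rw [e3, abs_mul]
    calc |φ1 u| * |a * b * d| ≤ 1 * |a * b * d| :=
          mul_le_mul_of_nonneg_right hφ1 (abs_nonneg _)
      _ ≤ _ := by rw [one_mul]; exact h1
  refine (abs_add_le _ _).trans ?_
  have h5 : u * TT A x y W ≤ TT A x y W * (P + u) := by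
    rw [mul_comm]
    exact mul_le_mul_of_nonneg_left (by linarith) hT
  linarith

/-- **flux of the summand of the entropy** -/
theorem HV_body (hA : A.IsSymm) (w : ι → ℝ) (x y : ι) {G G1 : ℝ → ℝ} {W : ι → ℂ} (hW : W ∈ Om ι)
    (hG : HasDerivAt G (G1 (NN A w x W / MM A x W)) (NN A w x W / MM A x W)) :
    HV A (fun W => MM A x W * G (NN A w x W / MM A x W)) y W =
      G1 (NN A w x W / MM A x W) * HV A (NN A w x) y W +
        (G (NN A w x W / MM A x W) -
          NN A w x W / MM A x W * G1 (NN A w x W / MM A x W)) * HV A (MM A x) y W := by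
  have hdu := diffAt (contDiffOn_u (n := 1) hA w x) one_ne_zero hW
  have hdM := diffAt (contDiffOn_MM (n := 1) hA x) one_ne_zero hW
  have hdG : DifferentiableAt ℝ (fun W => G (NN A w x W / MM A x W)) W :=
    (hG.comp_hasFDerivAt W hdu.hasFDerivAt).differentiableAt
  have e1 : DV (fun W => MM A x W * G (NN A w x W / MM A x W)) y W =
      MM A x W * DV (fun W => G (NN A w x W / MM A x W)) y W +
        G (NN A w x W / MM A x W) * DV (MM A x) y W := DD_mul hdM hdG
  have e2 : DV (fun W => G (NN A w x W / MM A x W)) y W =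
      G1 (NN A w x W / MM A x W) * DV (fun W => NN A w x W / MM A x W) y W := DD_comp hdu hG
  have e3 : DV (NN A w x) y W = NN A w x W / MM A x W * DV (MM A x) y W +
      MM A x W * DV (fun W => NN A w x W / MM A x W) y W := by
    have e4 : DV (NN A w x) y W = DV (fun W => (NN A w x W / MM A x W) * MM A x W) y W :=
      DD_congr (fun W hW => (div_mul_cancel₀ _ (MM_pos hA hW x).ne').symm) _ hW
    rw [e4]
    exact DD_mul hdu hdM
  unfold HV
  rw [e1, e2, e3]
  ring

end prod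

end P365H756
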