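import Vale.Agent.P365.T2.H756.OmAv
import Vale.Agent.P365.T2.H259.OneRes

/-!
# P365-T2: `OmF` is a theorem, hence `OneX` (helper756)
-/

set_option linter.all false

namespace P365H756

open P365T2.H259 P365T2.H213 P365T2.X629 P365T2.H963

/-- **`OmF`** (259's literal Prop) -/
theorem omF {lam E C1 : ℝ} (hlam : 0 < lam) (hC1 : 0 < C1) : OmF lam E C1 := by
  intro θ hθ hθ1
  obtain ⟨C, hC, H⟩ := om_field (E := E) hlam hC1 θ hθ hθ1
  refine ⟨C, hC, fun k hk => ?_⟩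
  obtain ⟨C', hC', T₀, hT₀, H⟩ := H k hk
  exact ⟨C', hC', T₀, hT₀, fun T hT g hg ε hε hε1 N _ W ok τ hτ =>
    H T hT g hg ε hε hε1 ⟨N, W, ok, τ, hτ⟩⟩

/-- **`OneX`** (963's literal Prop) -/
theorem oneX {lam E C1 : ℝ} (hlam : 0 < lam) (hC1 : 0 < C1) : OneX lam E C1 :=
  oneX_of_om hlam (omF hlam hC1)


end P365H756
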